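import Crest.Agent.X261.Top.Defs
import Crest.Agent.X261.Eqv.Defs
import Crest.Agent.X261.Grp.Defs

/-!
# Row 261, RELN (helper60), file `Defs`: the outputs of the two-point system `Eqv.TP`

* `Kes`               : weak Kesten property;
* `Tr`, `Ig`, `Shell` : the three outputs;
* `EnStmt`, `RelnAStmt`, `RelnBStmt`.
-/

set_option autoImplicit false
set_option linter.unusedSectionVars false
set_option linter.dupNamespace false

open Set Filter Topology MeasureTheory
open scoped ENNReal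

namespace Crest.Agent.X261.Rn

open Crest.Agent.R275.Geo Crest.Agent.R275.Core144 Crest.Agent.R275.GC293
open Crest.Agent.R273.Defs_333 Crest.Agent.R273.Kah_333 Crest.Agent.R273.UCov_914
open Crest.Agent.X261.Ans (HA)
open Crest.Agent.X261.Eqv (TP AE)
open Crest.Agent.X261.Top (Tube Fol Pol)
open Crest.Agent.X261.Loc (IG)
open Crest.Agent.X261.Grp (JN)
open Crest.Agent.R189 (IsProb l1 Amen)

noncomputable section

section Gen

variable {E : Type} [NormedAddCommGroup E] [NormedSpace ℂ E] [MeasurableSpace E]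
  {M : Type} [TopologicalSpace M] {μ : Measure E} {A : HA E M} {G : Type} [Group G]
  [MulAction G M]

/-- (K) weak Kesten property at one index (conclusion = text of `Grp.WO`) -/
def Kes (T : TP μ A G) : Prop :=
  ∃ (k : ℕ) (c0 C : ℝ), 0 < c0 ∧ ∀ F : Finset G, ∀ x ∈ T.M0,
    (∀ g ∈ F, T.Xi k x (g • x) < (C : EReal)) →
      ∃ p, IsProb p ∧ ∀ g ∈ F, l1 (p.mapDomain (fun x => g * x) - p) ≤ 2 - c0

/-- output (TR): a nontrivial normal subgroup moves almost every point inside its class -/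
def Tr (T : TP μ A G) : Prop :=
  ∃ N : Subgroup G, N.Normal ∧ N ≠ ⊥ ∧
    AE μ A fun x => x ∈ T.M0 ∧ ∀ g ∈ N, ∀ k, T.Xi k x (g • x) = ⊥

/-- output (IG): infinitesimal data whose small elements are small for the two-point system -/
def Ig (T : TP μ A G) : Prop :=
  ∃ (V : Type) (_ : NormedAddCommGroup V) (_ : NormedSpace ℝ V) (I : IG G V),
    ∃ x ∈ T.M0, ∀ (k : ℕ) (a : ℝ), ∃ δ : ℝ, 0 < δ ∧
      ∀ g ∈ I.S, ‖I.v g‖ < δ → T.Xi k x (g • x) ≤ (a : EReal)

end Gen

/-- output (SHELL): at almost every point, a local lower bound off the fibre of the tube -/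
def Shell {n : ℕ} {M : Type} [TopologicalSpace M] {B : Atl n M} {G : Type} [Group G]
    [MulAction G M] {p : ℕ} (𝒯 : Tube B G p) (T : TP volume (HA.of B) G) : Prop :=
  AE volume (HA.of B) fun y => y ∈ 𝒯.M0 ∧ T.Typ y ∧ ∃ k, ∃ U ∈ 𝓝 y, ∀ ρ : ℝ, 0 < ρ →
    ∃ a : ℝ, ∀ x ∈ U, x ∈ 𝒯.T y → ρ ≤ ‖𝒯.π y x‖ → x ∈ T.M0 → (a : EReal) ≤ T.Xi k x y

/-- the weights of the pulled back metric -/
abbrev wtD {n : ℕ} {X : Type} [TopologicalSpace X] {A : Atl n X} {G : Type} [Group G]
    (D : MonD A G) {L : LB A} (h : HM L) : (HA.of (D.atl G)).ι → Cn n → ℝ :=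
  fun q z => (D.pullHM (F := G) h).wt q z

/-- EN (58): the two-point system of a foliated cover -/
def EnStmt : Prop :=
  ∀ (n : ℕ) (X : Type) [TopologicalSpace X] [T2Space X] [CompactSpace X] [ConnectedSpace X]
    (A : Atl n X) [Finite A.ι], GoodA A → Part A → Kah A →
    ∀ (G : Type) [Group G] (D : MonD A G), ConnectedSpace (D.cov G) →
    ∀ (p : ℕ), 1 ≤ p → p ≤ n → ∀ (F : Fol D p) (h : HM F.L),
      ∃ T : TP volume (HA.of (D.atl G)) G, T.wt = wtD D h ∧ (∀ x, T.φ x ≤ 0) ∧ Kes T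

/-- RELN, general form (export for the amenable half) -/
def RelnBStmt : Prop :=
  ∀ (n : ℕ), 1 ≤ n → ∀ (M : Type) [TopologicalSpace M] [T2Space M] [ConnectedSpace M]
    (B : Atl n M) [Countable B.ι] (G : Type) [Group G] [Countable G] [MulAction G M]
    (p : ℕ) (𝒯 : Tube B G p) (T : TP volume (HA.of B) G), Tr T ∨ Ig T ∨ Shell 𝒯 T

/-- RELN, non amenable half -/
def RelnAStmt : Prop :=
  ∀ (n : ℕ), 1 ≤ n → ∀ (X : Type) [TopologicalSpace X] [T2Space X] (A : Atl n X)
    [Finite A.ι] (G : Type) [Group G] (D : MonD A G), ConnectedSpace (D.cov G) →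
    JN G → ¬ Amen G → ∀ (p : ℕ) (F : Fol D p) (h : HM F.L)
      (T : TP volume (HA.of (D.atl G)) G), T.wt = wtD D h → (∀ x, T.φ x ≤ 0) → Kes T →
      Nonempty (Pol F h)

end

end Crest.Agent.X261.Rn
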