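import Crest.Agent.X261.Ans.Man2

/-!
# Row 261, RELN (helper60), file `Inc`: inclusion of fibres

If the fibres of a submersion `f` are locally contained in the fibres of `g` at a non thin set of
points near `x`, this is so near `x`.
-/

set_option autoImplicit false
set_option linter.unusedSectionVars false
set_option linter.dupNamespace false

open Set Filter Topology Module

namespace Crest.Agent.X261.Rn

open Crest.Agent.X261.Ans

variable {E F F' : Type} [NormedAddCommGroup E] [NormedSpace ℂ E] [FiniteDimensional ℂ E]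
  [NormedAddCommGroup F] [NormedSpace ℂ F] [FiniteDimensional ℂ F]
  [NormedAddCommGroup F'] [NormedSpace ℂ F'] [FiniteDimensional ℂ F']
  {M : Type} [TopologicalSpace M] {A : HA E M}

theorem subm_sub {f : M → F} {x : M} (hf : A.Subm (HA.self F) f x) :
    (A.prod A).Subm (HA.self F) (fun q => f q.1 - f q.2) (x, x) := by
  have h1 : (A.prod A).Hol (HA.self F) (fun q => f q.1 - f q.2) (x, x) :=
    HA.Hol.sub (hf.hol.comp_of_eq (HA.hol_fst A A (x, x)) rfl)
      (hf.hol.comp_of_eq (HA.hol_snd A A (x, x)) rfl)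
  have h2 : (HA.self F).Subm (HA.self F) (fun t => t - f x) (f x) := by
    refine HA.self_subm_iff.2 ⟨by fun_prop, ?_⟩
    rw [fderiv_sub_const, fderiv_fun_id]
    exact Function.surjective_id
  exact HA.Subm.of_comp (f := fun y => (y, x)) (h2.comp hf) h1 (HA.hol_inl A A x x)

theorem inc_of_not_cov [Countable A.ι] {f : M → F} {g : M → F'} {x : M}
    (hf : A.Subm (HA.self F) f x) (hg : A.Hol (HA.self F') g x)
    (h : ∀ N ∈ 𝓝 x, ¬ A.Cov (finrank ℂ E) (N ∩ {y | ∀ᶠ z in 𝓝 y, f y = f z → g y = g z})) :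
    ∀ᶠ q in 𝓝 (x, x), f q.1 = f q.2 → g q.1 = g q.2 := by
  have : Countable (A.prod A).ι := inferInstanceAs (Countable (A.ι × A.ι))
  have hle := hf.finrank_le
  have h1 := (subm_sub hf).reg_fibre
  have h2 : (A.prod A).AnAt {q | g q.1 = g q.2} (x, x) :=
    HA.anAt_eq_self (hg.comp_of_eq (HA.hol_fst A A (x, x)) rfl)
      (hg.comp_of_eq (HA.hol_snd A A (x, x)) rfl)
  simp only [sub_self] at h1
  rcases h1.dich h2 with h3 | ⟨V, hV, hxV, hc, -⟩
  · exact h3.mono fun q hq he => hq (by simpa [sub_eq_zero] using he)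
  exfalso
  rw [finrank_prod] at hc
  set S := ((fun q : M × M => f q.1 - f q.2) ⁻¹' {0}) ∩ {q | g q.1 = g q.2} ∩ V with hS
  rcases hd : finrank ℂ E + finrank ℂ E - finrank ℂ F with - | d
  · rw [hd, HA.cov_zero] at hc
    have : (x, x) ∈ S := ⟨⟨by simp, rfl⟩, hxV⟩
    rw [hc] at this
    exact this
  rw [hd] at hc
  have h4 := hc.fibre (B := A) (f := Prod.fst) fun q _ => HA.hol_fst A A q
  have h5 : ∀ᶠ y in 𝓝 x, (y, y) ∈ V ∧ A.Subm (HA.self F) f y :=
    (((continuous_id.prodMk continuous_id).tendsto x).eventually (hV.mem_nhds hxV)).and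
      hf.eventually
  refine h _ h5 (h4.sub ?_)
  rintro y ⟨⟨hy1, hy2⟩, hy3⟩ hcov
  rw [show d + 1 - finrank ℂ E = finrank ℂ E - finrank ℂ F by omega] at hcov
  have h6 : ∀ᶠ z in 𝓝 y, (y, z) ∈ V :=
    ((continuous_const.prodMk continuous_id).tendsto y).eventually (hV.mem_nhds hy1)
  refine hy2.reg_fibre.not_cov (h6.and hy3) ((hcov.image (B := A) (f := Prod.snd)
    fun q _ => HA.hol_snd A A q).sub ?_)
  rintro z ⟨hz1, hz2, hz3⟩
  have hz1' : f z = f y := hz1
  exact ⟨(y, z), ⟨⟨⟨by simp [hz1'], hz3 hz1'.symm⟩, hz2⟩, rfl⟩, rfl⟩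

end Crest.Agent.X261.Rn
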