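import Crest.Agent.X261.Rn.Defs
import Crest.Agent.X261.Rn.Inc
import Crest.Agent.X261.Eqv.A
import Crest.Agent.X261.Ans.Man4
import Crest.Agent.X261.Loc.Car
import Crest.Agent.X261.Grp.IGb
import Crest.Agent.X261.Grp.WR
import Crest.Agent.X261.Cov.A

/-!
# Row 261, RELN (helper60), file `Main`: the trichotomy and the non amenable case
-/

set_option autoImplicit false
set_option linter.unusedSectionVars false
set_option linter.dupNamespace false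

open Set Filter Topology MeasureTheory Module

namespace Crest.Agent.X261.Rn

open Crest.Agent.R275.Geo Crest.Agent.R275.Core144
open Crest.Agent.R273.Defs_333 Crest.Agent.R273.UCov_914
open Crest.Agent.X261.Ans Crest.Agent.X261.Ans.Brg
open Crest.Agent.X261.Eqv (TP AE EqvStmt ae_of_cov)
open Crest.Agent.X261.Top (Tube Fol Pol)
open Crest.Agent.X261.Loc (IG Leaf)
open Crest.Agent.X261.Grp (JN WO amen_of_wo)
open Crest.Agent.R189 (Amen)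

noncomputable section

section Gen

variable {E : Type} [NormedAddCommGroup E] [NormedSpace ℂ E] [FiniteDimensional ℂ E]
  [MeasurableSpace E] [BorelSpace E] {μ : Measure E} [μ.IsAddHaarMeasure]
  {M : Type} [TopologicalSpace M] [ConnectedSpace M] {A : HA E M} {G : Type} [Group G]
  [MulAction G M] {T : TP μ A G}

theorem cov_S (O : T.Out) : A.Cov (finrank ℂ E) O.L.Sᶜ := by
  refine O.an_S.cov_of_ne fun h => ?_
  obtain ⟨x, hx⟩ := O.L.ne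
  exact (h ▸ mem_univ x : x ∈ O.L.Sᶜ) hx

theorem ae_S (O : T.Out) : AE μ A fun x => x ∈ O.L.S :=
  (ae_of_cov (cov_S O)).mono fun _ h => not_not.1 h

/-- the elements acting trivially on the leaf space -/
def triv {F : Type} [NormedAddCommGroup F] [NormedSpace ℂ F] (L : Leaf G M F) : Subgroup G where
  carrier := {g | ∀ z ∈ L.S, L.R (L.act g z) z}
  one_mem' := fun z hz => by rw [L.act_one]; exact L.refl z hz
  mul_mem' := fun {a b} ha hb z hz => by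
    rw [L.act_mul]
    exact L.trans _ (L.sinv _ _ (L.sinv _ _ hz)) _ (L.sinv _ _ hz) _ hz (ha _ (L.sinv _ _ hz))
      (hb z hz)
  inv_mem' := fun {a} ha z hz => by
    have h := ha _ (L.sinv a⁻¹ z hz)
    rw [← L.act_mul, mul_inv_cancel, L.act_one] at h
    exact L.symm _ hz _ (L.sinv _ _ hz) h

theorem triv_normal {F : Type} [NormedAddCommGroup F] [NormedSpace ℂ F] (L : Leaf G M F) :
    (triv L).Normal := ⟨fun a ha g z hz => by
  have h1 := L.sinv g⁻¹ z hz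
  have h := L.rinv g _ (L.sinv a _ h1) _ h1 (ha _ h1)
  rwa [← L.act_mul, ← L.act_mul, ← L.act_mul, mul_inv_cancel, L.act_one] at h⟩

theorem near_self (O : T.Out) {x : M} (hx : x ∈ O.L.S) (ht : T.Typ x) (k : ℕ) (a : ℝ) :
    ∃ W ∈ 𝓝 x, ∀ g : G, ∀ z ∈ W, O.L.R (g • x) z → T.Xi k x (g • x) ≤ (a : EReal) := by
  obtain ⟨W, hW, h⟩ := O.near x hx ht.good k (-a)
  have hxW := mem_of_mem_nhds hW
  refine ⟨W, hW, fun g z hz hr => ?_⟩
  have := h g x hxW z hz hr x ⟨hxW, ht.mem⟩ x ⟨hxW, ht.mem⟩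
  rwa [neg_neg, T.Xi_symm k _ (T.M0_inv g x ht.mem) _ ht.mem] at this

theorem tr_of_triv (O : T.Out) (h : O.L.Triv) : Tr T := by
  obtain ⟨g, hg1, hg⟩ := h
  refine ⟨triv O.L, triv_normal _, fun h => hg1 (Subgroup.mem_bot.1 (h ▸ hg)),
    ((ae_S O).and O.typ).mono fun x hx => ⟨hx.2.mem, fun a ha k => ?_⟩⟩
  refine EReal.eq_bot_iff_forall_lt _ |>.2 fun c => ?_
  obtain ⟨W, hW, h⟩ := near_self O hx.1 hx.2 k (c - 1)
  exact (h a x (mem_of_mem_nhds hW) (O.act a x ▸ ha x hx.1)).trans_lt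
    (EReal.coe_lt_coe_iff.2 (by linarith))

theorem ig_of_small (O : T.Out) {V : Type} [NormedAddCommGroup V] [NormedSpace ℝ V] {I : IG G V}
    (h : O.L.Small I) : Ig T := by
  obtain ⟨x, -, hx⟩ := ((ae_S O).and O.typ).exists_mem (x := Classical.arbitrary M) univ_mem
  refine ⟨V, inferInstance, inferInstance, I, x, hx.2.mem, fun k a => ?_⟩
  obtain ⟨W, hW, h1⟩ := near_self O hx.1 hx.2 k a
  obtain ⟨ε, hε, h2⟩ := h x hx.1 W hW
  refine ⟨ε, hε, fun g hg hv => ?_⟩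
  obtain ⟨y, hy, hr⟩ := h2 g hg hv
  exact h1 g y hy (O.act g x ▸ hr)

theorem subm_L (O : T.Out) {x y : M} (hx : x ∈ O.L.S) (hy : y ∈ O.L.U x) :
    A.Subm (HA.self (Fin O.p → ℂ)) (O.L.π x) y := by
  obtain ⟨i, hi⟩ := A.cover y
  have h := O.subm x hx y hy i hi
  have h1 := (HA.hol_self_iff hi).2 h.1
  exact (HA.subm_self_iff h1 hi).2 h.2

theorem not_tr (hG : JN G) (hA : ¬ Amen G) (hK : Kes T) : ¬ Tr T := by
  rintro ⟨N, hN, hN0, h⟩
  obtain ⟨k, c0, C, hc, hK⟩ := hK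
  obtain ⟨x, -, hx⟩ := h.exists_mem (x := Classical.arbitrary M) univ_mem
  refine hN0 (hG.eq_bot_of_amen hA hN (amen_of_wo hc fun F hF => hK F x hx.1 fun g hg => ?_))
  rw [hx.2 g (hF g hg) k]
  exact EReal.bot_lt_coe _

theorem not_ig (hG : JN G) (hA : ¬ Amen G) (hK : Kes T) : ¬ Ig T := by
  rintro ⟨V, _, _, I, x, hx, h⟩
  obtain ⟨k, c0, C, hc, hK⟩ := hK
  obtain ⟨δ, hδ, h⟩ := h k (C - 1)
  exact hA (hG.amen_of_ig I hc hδ fun F hF => hK F x hx fun g hg =>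
    (h g (hF g hg).1 (hF g hg).2).trans_lt (EReal.coe_lt_coe_iff.2 (by linarith)))

end Gen

section Shell

variable {n : ℕ} {M : Type} [TopologicalSpace M] [T2Space M] [ConnectedSpace M] {B : Atl n M}
  [Countable B.ι] {G : Type} [Group G] [MulAction G M] {p : ℕ} (𝒯 : Tube B G p)
  {T : TP volume (HA.of B) G} (O : T.Out)

/-- near `x` related points lie in the same fibre -/
def Loc (x : M) : Prop := ∀ᶠ q in 𝓝 (x, x), O.L.R q.1 q.2 → q.2 ∈ 𝒯.W q.1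

theorem loc_of {x : M} (hx : x ∈ O.L.S) (hx0 : x ∈ 𝒯.M0)
    (h : ∀ N ∈ 𝓝 x, ¬ (HA.of B).Cov (finrank ℂ (Cn n))
      (N ∩ {y | ∀ᶠ z in 𝓝 y, O.L.R y z → z ∈ 𝒯.W y})) : Loc 𝒯 O x := by
  have ho : IsOpen (O.L.U x ∩ 𝒯.T x) := (O.L.U_opn x hx).inter (𝒯.T_opn x hx0)
  have hn : O.L.U x ∩ 𝒯.T x ∈ 𝓝 x := ho.mem_nhds ⟨O.L.U_mem x hx, 𝒯.T_mem x hx0⟩
  have h1 := inc_of_not_cov (subm_L O hx (O.L.U_mem x hx))
    (tube_subm 𝒯 hx0 (𝒯.T_mem x hx0)).hol (fun N hN hc => h _ (inter_mem hN hn) (hc.sub ?_))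
  · filter_upwards [h1, prod_mem_nhds hn hn] with q hq hm hr
    rw [𝒯.π_fib x hx0 _ hm.1.2]
    exact ⟨hm.2.2, (hq ((O.L.π_rel x hx _ hm.1.1 _ hm.2.1).1 hr)).symm⟩
  · rintro y ⟨⟨hy1, hy2⟩, hy3⟩
    refine ⟨hy1, ?_⟩
    filter_upwards [hy3, ho.mem_nhds hy2] with z hz hm he
    have := hz ((O.L.π_rel x hx _ hy2.1 _ hm.1).2 he)
    rw [𝒯.π_fib x hx0 _ hy2.2] at this
    exact this.2.symm

theorem Loc.ev {x : M} (h : Loc 𝒯 O x) : ∀ᶠ y in 𝓝 x, Loc 𝒯 O y :=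
  ((continuous_id.prodMk continuous_id).tendsto x).eventually (eventually_eventually_nhds.2 h)

theorem Loc.sl {x : M} (h : Loc 𝒯 O x) : ∀ᶠ z in 𝓝 x, O.L.R x z → z ∈ 𝒯.W x :=
  ((continuous_const.prodMk continuous_id).tendsto x).eventually h

theorem loc_all (hW : O.L.Wand) : ∀ x ∈ O.L.S ∩ 𝒯.M0, Loc 𝒯 O x := by
  obtain ⟨V, hV, hVne, hVS, -, -, -, hZ⟩ := O.wand hW
  obtain ⟨x, hx0, hxV⟩ := (tube_dense 𝒯).exists_mem_open hV hVne
  have hthin := cov_iff_sthM'.2 𝒯.thin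
  have h1 : Loc 𝒯 O x := by
    refine loc_of 𝒯 O (hVS hxV) hx0 fun N hN hc => ?_
    refine (hc.union (cov_iff_sthM'.2 𝒯.bad_thin)).not_mem_nhds x ?_
    filter_upwards [hN, hV.mem_nhds hxV, 𝒯.opn.mem_nhds hx0] with y h1 h2 h3
    by_cases hb : y ∈ 𝒯.Bad
    · exact Or.inr hb
    obtain ⟨Z, z1, z2, z3, z4, z5⟩ := hZ y h2
    exact Or.inl ⟨h1, z5.mono fun z hz hr =>
      𝒯.max y h3 hb Z z1 z2 (anM_of_an (finEq _) z3) z4 (hz hr)⟩
  have hc : IsPreconnected (O.L.S ∩ 𝒯.M0) := by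
    have := HA.preconnected_diff O.L.opn O.L.conn hthin
      (by rw [sdiff_compl]; exact O.L.opn.inter 𝒯.opn)
    rwa [sdiff_compl] at this
  refine fun y hy => hc.subset_of_closure_inter_subset (u := {x | Loc 𝒯 O x})
    (isOpen_iff_mem_nhds.2 fun z hz => Loc.ev 𝒯 O hz) ⟨x, ⟨hVS hxV, hx0⟩, h1⟩ ?_ hy
  rintro z ⟨hz1, hz2⟩
  refine loc_of 𝒯 O hz2.1 hz2.2 fun N hN hc => ?_
  obtain ⟨w, hw1, hw2⟩ := mem_closure_iff_nhds.1 hz1 _ (eventually_mem_nhds_iff.2 hN)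
  exact hc.not_mem_nhds w (inter_mem hw1 ((Loc.ev 𝒯 O hw2).mono fun u hu => Loc.sl 𝒯 O hu))

theorem shell_of_wand (hW : O.L.Wand) : Shell 𝒯 T := by
  have := (HA.of B).locallyCompact
  refine (((ae_S O).and (ae_of_cov (cov_iff_sthM'.2 𝒯.thin))).and O.typ).mono ?_
  rintro y ⟨⟨hy, hy0⟩, ht⟩
  have hy0 : y ∈ 𝒯.M0 := not_not.1 hy0
  have h1 := Loc.sl 𝒯 O (loc_all 𝒯 O hW y ⟨hy, hy0⟩)
  obtain ⟨K, hK, hKs, hKc⟩ := local_compact_nhds (inter_mem h1 (inter_mem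
    ((O.L.U_opn y hy).mem_nhds (O.L.U_mem y hy)) ((𝒯.T_opn y hy0).mem_nhds (𝒯.T_mem y hy0))))
  refine ⟨hy0, ht, O.k0, K, hK, fun ρ hρ => ?_⟩
  have hcl : IsCompact (K ∩ (fun x => ‖𝒯.π y x‖) ⁻¹' Ici ρ) :=
    hKc.of_isClosed_subset (((𝒯.π_cont y hy0).mono fun x hx => (hKs hx).2.2).norm
      |>.preimage_isClosed_of_isClosed hKc.isClosed isClosed_Ici) inter_subset_left
  obtain ⟨a, ha⟩ := O.far O.k0 le_rfl y hy _ (hcl.prod (isCompact_singleton (x := y))) (by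
    rintro ⟨x, w⟩ ⟨⟨hx1, hx2⟩, rfl⟩
    refine ⟨(hKs hx1).2.1, O.L.U_mem _ hy, fun he => ?_⟩
    have h2 := (hKs hx1).1 ((O.L.π_rel _ hy _ (O.L.U_mem _ hy) _ (hKs hx1).2.1).2 he.symm)
    rw [tube_W_eq 𝒯 hy0] at h2
    have h3 : ρ ≤ ‖𝒯.π w x‖ := hx2
    rw [h2.2, norm_zero] at h3
    exact h3.not_gt hρ)
  refine ⟨-a, fun x hx _ hxρ hx0 => le_of_not_ge fun h => ?_⟩
  exact ha (x, y) ⟨⟨hx, hxρ⟩, rfl⟩ (subset_closure ⟨hx0, ht.mem, h⟩)

end Shell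

theorem relnB_of (hQ : EqvStmt) : RelnBStmt := by
  intro n hn M _ _ _ B _ G _ _ _ p 𝒯 T
  have : Nonempty (Fin n) := ⟨⟨0, hn⟩⟩
  obtain ⟨O⟩ := hQ (Cn n) volume M (HA.of B) G T
  rcases Loc.Car.tri O.L with h | h | ⟨c, ρ, I, h⟩
  · exact Or.inr (Or.inr (shell_of_wand 𝒯 O h))
  · exact Or.inl (tr_of_triv O h)
  · exact Or.inr (Or.inl (ig_of_small O h))

/-- the text of `Gauss.PolShStmt` -/
def PolSh : Prop :=
  ∀ (n : ℕ), 1 ≤ n → ∀ (X : Type) [TopologicalSpace X] [T2Space X] (A : Atl n X)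
    [Finite A.ι] (G : Type) [Group G] (D : MonD A G), ConnectedSpace (D.cov G) →
    ∀ (p : ℕ) (F : Fol D p) (h : HM F.L) (T : TP volume (HA.of (D.atl G)) G),
      T.wt = wtD D h → (∀ x, T.φ x ≤ 0) → Shell F.T T → Nonempty (Pol F h)

theorem relnA_of (hB : RelnBStmt) (hP : PolSh) : RelnAStmt := by
  intro n hn X _ _ A _ G _ D hc hG hA p F h T hw h0 hK
  have : Countable G := X261.Cov.A.countable D
  have : Countable (D.atl G).ι := inferInstanceAs (Countable (A.ι × G))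
  rcases hB n hn (D.cov G) (D.atl G) G p F.T T with h1 | h1 | h1
  · exact absurd h1 (not_tr hG hA hK)
  · exact absurd h1 (not_ig hG hA hK)
  · exact hP n hn X A G D hc p F h T hw h0 h1

end

end Crest.Agent.X261.Rn
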